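import Vale.Agent.P116.AD.Spec
import Vale.Agent.P116.Cl.H805.Bridge

/-!
# P116, block [7]: the row CORE
-/

open Set Filter Topology Metric

namespace Vale.Agent.P116.AD.H155

open H906 H730
open KB720 (cell un clo chi bdc Tk Flat)
open KB.H984 (hitc two bad)
open Vale.Agent.P116.Star (pt St Rl Tch Ins)
open KB.Grid841 (col)

variable {ι : Type*} {K w : Set ℂ} {u : ι → ℂ → ℝ} {d₀ : ℝ} {D : Finset (ℤ × ℤ)} {h : ℝ}
  {s : ι → ℝ} {QQ MM : Finset (Set ℂ)} {lo hi : ι → Set ℂ → ℝ} {ρ d : ℝ}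

lemma col_bd {h s x : ℝ} (hh : 0 < h) : s + col h s x * h ≤ x ∧ x < s + col h s x * h + h := by
  have h1 : ((col h s x : ℤ) : ℝ) ≤ (x - s) / h := Int.floor_le _
  have h2 : (x - s) / h < (col h s x : ℝ) + 1 := Int.lt_floor_add_one _
  rw [le_div_iff₀ hh] at h1
  rw [div_lt_iff₀ hh] at h2
  constructor <;> linarith

lemma lab_inr_cases {v : ℤ × ℤ} {c : ι → ℤ} (hv : lab u d₀ D h s QQ MM lo ρ d v = some (Sum.inr c)) :
    pt d v ∈ un d₀ D ∧ ((∃ Q ∈ QQ, Q ∉ MM ∧ v ∈ Nb d Q ∧ c = fun i => col h (s i) (lo i Q - ρ)) ∨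
      ((∀ Q ∈ QQ, v ∉ Nb d Q) ∧ c = fun i => col h (s i) (u i (pt d v)))) := by
  unfold lab at hv
  split_ifs at hv with h1 h2 h3
  · simp at hv
  · refine ⟨h1, Or.inl ⟨h3.choose, h3.choose_spec.1, ?_, h3.choose_spec.2, ?_⟩⟩
    · intro h4
      exact h2 ⟨_, h4, h3.choose_spec.2⟩
    · simpa using hv.symm
  · refine ⟨h1, Or.inr ⟨fun Q hQ hvQ => h3 ⟨Q, hQ, hvQ⟩, ?_⟩⟩
    simpa using hv.symm

lemma lab_inl_cases {v : ℤ × ℤ} {Q : Set ℂ}
    (hv : lab u d₀ D h s QQ MM lo ρ d v = some (Sum.inl Q)) : Q ∈ MM ∧ v ∈ Nb d Q := by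
  unfold lab at hv
  split_ifs at hv with h1 h2 h3
  · have : h2.choose = Q := by simpa using hv
    rw [← this]
    exact ⟨h2.choose_spec.1, h2.choose_spec.2⟩
  · simp at hv
  · simp at hv

/-- a star of `Nb d Q` is close to a point of `Q` -/
lemma exists_near (hd : 0 < d) {Q : Set ℂ} (hQ : IsCompact Q) {v : ℤ × ℤ} (hv : v ∈ Nb d Q) :
    ∃ q ∈ Q, ∀ z ∈ St d v, dist z q ≤ 8 * d := by
  obtain ⟨y, hy, hyQ⟩ := hv
  rw [hQ.cthickening_eq_biUnion_closedBall (by positivity)] at hyQ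
  obtain ⟨q, hq, hyq⟩ := mem_iUnion₂.1 hyQ
  refine ⟨q, hq, fun z hz => ?_⟩
  rw [mem_closedBall] at hyq
  have h1 := Star.St_subset_closedBall hd v hz
  have h2 := Star.St_subset_closedBall hd v hy
  rw [mem_closedBall] at h1 h2
  have h3 : dist z q ≤ dist z (pt d v) + dist (pt d v) y + dist y q := dist_triangle4 _ _ _ _
  rw [dist_comm (pt d v) y] at h3
  linarith

lemma dist_pt {v v' : ℤ × ℤ} (hd : 0 < d) (hc : Cl v v') : dist (pt d v) (pt d v') ≤ 2 * d := by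
  obtain ⟨h1, h2, h3, h4, -, -⟩ := hc
  have e1 : |((v.1 : ℝ) - v'.1)| ≤ 1 := by
    rw [abs_le]
    constructor
    · have : (-1 : ℤ) ≤ v.1 - v'.1 := by omega
      exact_mod_cast this
    · have : v.1 - v'.1 ≤ 1 := by omega
      exact_mod_cast this
  have e2 : |((v.2 : ℝ) - v'.2)| ≤ 1 := by
    rw [abs_le]
    constructor
    · have : (-1 : ℤ) ≤ v.2 - v'.2 := by omega
      exact_mod_cast this
    · have : v.2 - v'.2 ≤ 1 := by omega
      exact_mod_cast this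
  rw [dist_eq_norm]
  have f1 : (pt d v - pt d v').re = d * ((v.1 : ℝ) - v'.1) := by
    simp only [pt, Complex.sub_re]; ring
  have f2 : (pt d v - pt d v').im = d * ((v.2 : ℝ) - v'.2) := by
    simp only [pt, Complex.sub_im]; ring
  calc ‖pt d v - pt d v'‖ ≤ |(pt d v - pt d v').re| + |(pt d v - pt d v').im| :=
        Complex.norm_le_abs_re_add_abs_im _
    _ = d * |((v.1 : ℝ) - v'.1)| + d * |((v.2 : ℝ) - v'.2)| := by
        rw [f1, f2, abs_mul, abs_mul, abs_of_pos hd]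
    _ ≤ 2 * d := by nlinarith

variable (M : Msh K w u d₀ D h s QQ MM lo hi ρ d)

include M

lemma mem_w {z : ℂ} {q : ℂ} (hq : q ∈ un d₀ D) (hz : dist z q ≤ 20 * d) :
    z ∈ cthickening (20 * d) (un d₀ D) :=
  mem_cthickening_of_dist_le z q _ _ hq hz

lemma Q_sub {Q : Set ℂ} (hQ : Q ∈ QQ) : Q ⊆ un d₀ D :=
  (self_subset_cthickening Q).trans (M.inR Q hQ)

/-- values near a node -/
lemma val_near {Q : Set ℂ} (hQ : Q ∈ QQ) {z q : ℂ} (hq : q ∈ Q) (hzq : dist z q ≤ 16 * d)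
    (hzK : z ∉ K) (i : ι) : u i z ∈ Icc (lo i Q - ρ) (hi i Q + ρ) := by
  have hρ := M.hρ
  have hd := M.hd
  by_cases hzQ : z ∈ Q
  · have h1 := M.val i Q hQ z hzQ hzK
    exact ⟨by linarith [h1.1], by linarith [h1.2]⟩
  obtain ⟨x, hx, hxQ⟩ : (segment ℝ q z ∩ frontier Q).Nonempty := by
    by_contra hcon
    rw [not_nonempty_iff_eq_empty, ← disjoint_iff_inter_eq_empty] at hcon
    exact hzQ (H906.subset_of_frontier_disjoint (convex_segment q z).isPreconnected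
        ⟨q, left_mem_segment ℝ q z, hq⟩ hcon (right_mem_segment ℝ q z))
  have hxz : dist z x ≤ 16 * d := by
    have h1 : x ∈ closedBall z (dist q z) := by
      have h2 : segment ℝ q z ⊆ closedBall z (dist q z) :=
        (convex_closedBall z (dist q z)).segment_subset (mem_closedBall.2 le_rfl)
          (mem_closedBall_self dist_nonneg)
      exact h2 hx
    rw [mem_closedBall] at h1
    rw [dist_comm]
    exact h1.trans (by rwa [dist_comm])
  have hxQ' : x ∈ Q := (M.Qc Q hQ).1.isClosed.frontier_subset hxQ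
  have hxK : x ∉ K := fun h1 => disjoint_left.1 (M.Qc Q hQ).2.2 hxQ h1
  have hother : ∀ Q' ∈ QQ, Q' ≠ Q → ∀ p, dist p x ≤ 16 * d → p ∉ Q' := by
    intro Q' hQ' hne p hp hpQ
    have := M.sep Q' hQ' Q hQ hne p hpQ x hxQ'
    linarith
  have hzA : z ∈ Ar d d₀ D QQ := by
    refine ⟨mem_w M (Q_sub M hQ hxQ') (by linarith), fun h1 => ?_⟩
    obtain ⟨Q', hQ', hzi⟩ := mem_iUnion₂.1 h1
    by_cases hne : Q' = Q
    · rw [hne] at hzi
      exact hzQ (interior_subset hzi)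
    · exact hother Q' hQ' hne z hxz (interior_subset hzi)
  have hxA : x ∈ Ar d d₀ D QQ := by
    refine ⟨mem_w M (Q_sub M hQ hxQ') (by rw [dist_self]; positivity), fun h1 => ?_⟩
    obtain ⟨Q', hQ', hzi⟩ := mem_iUnion₂.1 h1
    by_cases hne : Q' = Q
    · rw [hne] at hzi
      exact hxQ.2 hzi
    · exact hother Q' hQ' hne x (by rw [dist_self]; positivity) (interior_subset hzi)
  have h1 := abs_le.1 (M.mod i z hzA x hxA (by linarith))
  have h2 := M.val i Q hQ x hxQ' hxK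
  exact ⟨by linarith [h2.1, h1.1], by linarith [h2.2, h1.2]⟩

lemma val_Nb {Q : Set ℂ} (hQ : Q ∈ QQ) {v : ℤ × ℤ} (hv : v ∈ Nb d Q) {z : ℂ} (hz : z ∈ St d v)
    (hzK : z ∉ K) (i : ι) : u i z ∈ Icc (lo i Q - ρ) (hi i Q + ρ) := by
  obtain ⟨q, hq, h1⟩ := exists_near M.hd (M.Qc Q hQ).1 hv
  exact val_near M hQ hq (by linarith [h1 z hz, M.hd]) hzK i

/-- stars off the neighbourhoods of the nodes -/
lemma star_off {v : ℤ × ℤ} (hv : pt d v ∈ un d₀ D) (hvQ : ∀ Q ∈ QQ, v ∉ Nb d Q) {z : ℂ}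
    (hz : z ∈ St d v) : z ∈ Ar d d₀ D QQ := by
  have hd := M.hd
  refine ⟨mem_w M hv ?_, fun h1 => ?_⟩
  · have := Star.St_subset_closedBall hd v hz
    rw [mem_closedBall] at this
    linarith
  · obtain ⟨Q', hQ', hzi⟩ := mem_iUnion₂.1 h1
    exact hvQ Q' hQ' ⟨z, hz, self_subset_cthickening Q' (interior_subset hzi)⟩

lemma Ar_off {z : ℂ} (hz : z ∈ Ar d d₀ D QQ) : z ∉ K := fun h1 => hz.2 (M.cov ⟨h1, M.inW hz.1⟩)

/-- close vertices are in the neighbourhood of at most one node -/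
lemma Nb_uniq {Q Q' : Set ℂ} (hQ : Q ∈ QQ) (hQ' : Q' ∈ QQ) {x y : ℤ × ℤ} (hx : x ∈ Nb d Q')
    (hy : y ∈ Nb d Q) (hc : Cl x y) : Q' = Q := by
  by_contra hne
  have hd := M.hd
  obtain ⟨q, hq, h1⟩ := exists_near hd (M.Qc Q hQ).1 hy
  obtain ⟨q', hq', h2⟩ := exists_near hd (M.Qc Q' hQ').1 hx
  have h3 := M.sep Q' hQ' Q hQ hne q' hq' q hq
  have h4 := h1 _ (Star.pt_mem_St hd y)
  have h5 := h2 _ (Star.pt_mem_St hd x)
  have h6 := dist_pt hd hc
  have h7 : dist q' q ≤ dist q' (pt d x) + dist (pt d x) (pt d y) + dist (pt d y) q :=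
    dist_triangle4 _ _ _ _
  rw [dist_comm q' (pt d x)] at h7
  linarith

/-- values on a star with a colour -/
lemma val_col {v : ℤ × ℤ} {c : ι → ℤ} (hv : lab u d₀ D h s QQ MM lo ρ d v = some (Sum.inr c))
    {z : ℂ} (hz : z ∈ St d v) (hzK : z ∉ K) (i : ι) :
    u i z ∈ Icc (s i + c i * h - h / 4) (s i + c i * h + 2 * h) := by
  have hd := M.hd
  have hh := M.hh
  have hρh := M.hρh
  obtain ⟨hv0, ⟨Q, hQ, hQM, hvQ, rfl⟩ | ⟨hoff, rfl⟩⟩ := lab_inr_cases hv
  · have h1 := val_Nb M hQ hvQ hz hzK i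
    have h2 := (M.good Q hQ hQM).1 i
    have h3 := col_bd (s := s i) (x := lo i Q - ρ) hh
    exact ⟨by linarith [h1.1], by linarith [h1.2]⟩
  · have hzA := star_off M hv0 hoff hz
    have hpA := star_off M hv0 hoff (Star.pt_mem_St hd v)
    have h1 : dist z (pt d v) ≤ 20 * d := by
      have := Star.St_subset_closedBall hd v hz
      rw [mem_closedBall] at this
      linarith
    have h2 := abs_le.1 (M.mod i z hzA _ hpA h1)
    have h3 := col_bd (s := s i) (x := u i (pt d v)) hh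
    exact ⟨by linarith [h2.1], by linarith [h2.2]⟩

omit M in
/-- **ROW 7-CORE** -/
theorem rowCore : RowCore := by
  intro ι _ K w u d₀ D h s QQ MM lo hi ρ d _ _ M B _
  have hd := M.hd
  have hh := M.hh
  have hρ := M.hρ
  have hρh := M.hρh
  refine ⟨?_, ?_⟩
  · rintro ⟨c, hc⟩ i
    refine ⟨s i + c i * h - h, fun z hz hzK => ?_⟩
    have h1 := val_col M (hc _ (Star.fv_mem hz)) (Star.mem_St_fv d z) hzK i
    exact ⟨by linarith [h1.1], by linarith [h1.2]⟩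
  · intro Q hQM hB i
    have hQ := M.MQ hQM
    refine ⟨lo i Q - 2 * h, fun z hz hzK => ?_⟩
    rcases hB _ (Star.fv_mem hz) with h1 | ⟨c, x, y, h1, h2, h3, h4, -⟩
    · have h2 := val_Nb M hQ (lab_inl_cases h1).2 (Star.mem_St_fv d z) hzK i
      exact ⟨by linarith [h2.1], by linarith [h2.2]⟩
    · have h5 := val_col M h1 (Star.mem_St_fv d z) hzK i
      obtain ⟨-, hyQ⟩ := lab_inl_cases h3
      obtain ⟨hx0, ⟨Q', hQ', hQM', hxQ', -⟩ | ⟨hoff, rfl⟩⟩ := lab_inr_cases h2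
      · have := Nb_uniq M hQ hQ' hxQ' hyQ h4
        exact absurd (this ▸ hQM) hQM'
      · have hpA := star_off M hx0 hoff (Star.pt_mem_St hd x)
        have hpK := Ar_off M hpA
        obtain ⟨q, hq, h6⟩ := exists_near hd (M.Qc Q hQ).1 hyQ
        have h7 := h6 _ (Star.pt_mem_St hd y)
        have h8 := dist_pt hd h4
        have h9 : dist (pt d x) q ≤ 16 * d := by
          linarith [dist_triangle (pt d x) (pt d y) q]
        have h10 := val_near M hQ hq h9 hpK i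
        have h11 := col_bd (s := s i) (x := u i (pt d x)) hh
        exact ⟨by linarith [h5.1, h10.1], by linarith [h5.2, h10.2]⟩

end Vale.Agent.P116.AD.H155
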