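import Vale.Agent.P116.Cl.H805.Bridge
import Vale.Agent.P116.KB.Grid841

/-!
# P116, block [7], row (F): the labelling and the oscillation over the cores

`labF` is the labelling of the vertices of the lattice by colours and special nodes. `labOsc`:
values on the stars. `osc_reg`, `osc_spc`: values over the cores `Rl d B` of the classes.
-/

open Set Filter Topology Metric

namespace Vale.Agent.P116.AD.H155

open H730 Vale.Agent.P116.Star KB.Grid841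

variable {J : Type*} {K w : Set ℂ} {d h η : ℝ} {u : J → ℂ → ℝ} {s : J → ℝ}
  {lo hi : J → Set ℂ → ℝ} {lab : Pt → Option (Set ℂ ⊕ (J → ℤ))}

/-- the values of the functions on the stars -/
structure LabOsc (K : Set ℂ) (d h η : ℝ) (u : J → ℂ → ℝ) (s : J → ℝ) (lo hi : J → Set ℂ → ℝ)
    (lab : Pt → Option (Set ℂ ⊕ (J → ℤ))) : Prop where
  col : ∀ v c, lab v = some (Sum.inr c) → ∀ z ∈ St d v, z ∉ K → ∀ j,
    s j + c j * h - h ≤ u j z ∧ u j z ≤ s j + c j * h + 2 * h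
  spc : ∀ v Q, lab v = some (Sum.inl Q) → ∀ z ∈ St d v, z ∉ K → ∀ j,
    lo j Q - η ≤ u j z ∧ u j z ≤ hi j Q + η
  adj : ∀ x y c Q, Cl x y → lab x = some (Sum.inr c) → lab y = some (Sum.inl Q) →
    ((St d x ∩ St d y) \ K).Nonempty

/-- the core of a regular class -/
theorem osc_reg (H : LabOsc K d h η u s lo hi lab) {B : Set Pt} {c : J → ℤ}
    (hB : ∀ v ∈ B, lab v = some (Sum.inr c)) {z : ℂ} (hz : z ∈ Rl d B) (hzK : z ∉ K) (j : J) :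
    s j + c j * h - h ≤ u j z ∧ u j z ≤ s j + c j * h + 2 * h :=
  H.col (fv d z) c (hB _ (fv_mem hz)) z (mem_St_fv d z) hzK j

/-- the core of a special class -/
theorem osc_spc (H : LabOsc K d h η u s lo hi lab) {B : Set Pt} {Q : Set ℂ}
    (hB : ∀ v ∈ B, lab v = some (Sum.inl Q) ∨ ∃ c x y, lab v = some (Sum.inr c) ∧
      lab x = some (Sum.inr c) ∧ lab y = some (Sum.inl Q) ∧ Cl x y ∧ x ∈ B)
    (hh : 0 ≤ h) {z : ℂ} (hz : z ∈ Rl d B) (hzK : z ∉ K) (j : J) :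
    lo j Q - η - 3 * h ≤ u j z ∧ u j z ≤ hi j Q + η + 3 * h := by
  rcases hB _ (fv_mem hz) with h1 | ⟨c, x, y, h1, h2, h3, h4, -⟩
  · have h5 := H.spc _ Q h1 z (mem_St_fv d z) hzK j
    constructor <;> linarith [h5.1, h5.2]
  · obtain ⟨z', ⟨hzx, hzy⟩, hz'K⟩ := H.adj x y c Q h4 h2 h3
    have h5 := H.col _ c h1 z (mem_St_fv d z) hzK j
    have h6 := H.col _ c h2 z' hzx hz'K j
    have h7 := H.spc _ Q h3 z' hzy hz'K j
    constructor <;> linarith [h5.1, h5.2, h6.1, h6.2, h7.1, h7.2]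

/-! ### the labelling -/

open Classical in
/-- the labelling: `𝒬` the nodes, `SP` the special ones, `V0` the vertices of the region -/
noncomputable def labF (d h : ℝ) (u : J → ℂ → ℝ) (s : J → ℝ) (lo : J → Set ℂ → ℝ)
    (𝒬 SP : Set (Set ℂ)) (V0 : Set Pt) (v : Pt) : Option (Set ℂ ⊕ (J → ℤ)) :=
  if v ∉ V0 then none
  else if hQ : ∃ Q ∈ 𝒬, v ∈ Tch d Q then
    if hQ.choose ∈ SP then some (Sum.inl hQ.choose)
    else some (Sum.inr fun j => col h (s j) (lo j hQ.choose))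
  else some (Sum.inr fun j => col h (s j) (u j (pt d v)))

/-- the hypotheses on the nodes and the mesh -/
structure Msh (K w : Set ℂ) (d : ℝ) (𝒬 : Set (Set ℂ)) (V0 : Set Pt) : Prop where
  hd : 0 < d
  cov : K ∩ w ⊆ ⋃ Q ∈ 𝒬, interior Q
  cl : ∀ Q ∈ 𝒬, IsClosed Q
  sub : ∀ Q ∈ 𝒬, Q ⊆ w
  pd : ∀ Q ∈ 𝒬, ∀ Q' ∈ 𝒬, Q ≠ Q' → Disjoint (Tch d Q) (Tch d Q')
  ins : V0 ⊆ Ins d w
  tch : ∀ Q ∈ 𝒬, Tch d Q ⊆ V0

variable {𝒬 SP : Set (Set ℂ)} {V0 : Set Pt}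

namespace Msh

variable (M : Msh K w d 𝒬 V0)

include M

lemma qdisj {Q Q' : Set ℂ} (hQ : Q ∈ 𝒬) (hQ' : Q' ∈ 𝒬) (hne : Q ≠ Q') : Disjoint Q Q' := by
  rw [disjoint_left]
  intro z hz hz'
  exact disjoint_left.1 (M.pd Q hQ Q' hQ' hne) (fv_mem_Tch hz) (fv_mem_Tch hz')

omit M in
lemma lab_none {v : Pt} : labF d h u s lo 𝒬 SP V0 v = none ↔ v ∉ V0 := by
  unfold labF
  split_ifs <;> simp_all

omit M in
lemma lab_out {v : Pt} (hv : v ∉ V0) : labF d h u s lo 𝒬 SP V0 v = none := lab_none.2 hv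

lemma choose_eq {v : Pt} {Q : Set ℂ} (hQ : Q ∈ 𝒬) (hv : v ∈ Tch d Q)
    (h : ∃ Q ∈ 𝒬, v ∈ Tch d Q) : h.choose = Q := by
  by_contra hne
  exact disjoint_left.1 (M.pd _ h.choose_spec.1 Q hQ hne) h.choose_spec.2 hv

lemma lab_spc {v : Pt} {Q : Set ℂ} (hQ : Q ∈ 𝒬) (hSP : Q ∈ SP) (hv : v ∈ Tch d Q) :
    labF d h u s lo 𝒬 SP V0 v = some (Sum.inl Q) := by
  have h0 : v ∈ V0 := M.tch Q hQ hv
  have h1 : ∃ Q ∈ 𝒬, v ∈ Tch d Q := ⟨Q, hQ, hv⟩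
  unfold labF
  rw [if_neg (by simpa using h0), dif_pos h1, M.choose_eq hQ hv h1, if_pos hSP]

lemma lab_good {v : Pt} {Q : Set ℂ} (hQ : Q ∈ 𝒬) (hSP : Q ∉ SP) (hv : v ∈ Tch d Q) :
    labF d h u s lo 𝒬 SP V0 v = some (Sum.inr fun j => col h (s j) (lo j Q)) := by
  have h0 : v ∈ V0 := M.tch Q hQ hv
  have h1 : ∃ Q ∈ 𝒬, v ∈ Tch d Q := ⟨Q, hQ, hv⟩
  unfold labF
  rw [if_neg (by simpa using h0), dif_pos h1, M.choose_eq hQ hv h1, if_neg hSP]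

omit M in
lemma lab_free {v : Pt} (h0 : v ∈ V0) (hv : ∀ Q ∈ 𝒬, v ∉ Tch d Q) :
    labF d h u s lo 𝒬 SP V0 v = some (Sum.inr fun j => col h (s j) (u j (pt d v))) := by
  have h1 : ¬ ∃ Q ∈ 𝒬, v ∈ Tch d Q := fun ⟨Q, hQ, h2⟩ => hv Q hQ h2
  unfold labF
  rw [if_neg (by simpa using h0), dif_neg h1]

omit M in
/-- the two cases -/
lemma cases (v : Pt) : (∃ Q ∈ 𝒬, v ∈ Tch d Q) ∨ ∀ Q ∈ 𝒬, v ∉ Tch d Q := by
  by_cases h : ∃ Q ∈ 𝒬, v ∈ Tch d Q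
  · exact Or.inl h
  · exact Or.inr fun Q hQ h2 => h ⟨Q, hQ, h2⟩

lemma lab_inl {v : Pt} {Q : Set ℂ} (hv : labF d h u s lo 𝒬 SP V0 v = some (Sum.inl Q)) :
    Q ∈ 𝒬 ∧ Q ∈ SP ∧ v ∈ Tch d Q := by
  by_cases h0 : v ∈ V0
  swap
  · rw [lab_out h0] at hv; cases hv
  rcases cases (d := d) (𝒬 := 𝒬) v with ⟨Q', hQ', hvQ⟩ | h1
  · by_cases hSP : Q' ∈ SP
    · rw [M.lab_spc hQ' hSP hvQ] at hv
      have : Q' = Q := by simpa using hv
      rw [← this]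
      exact ⟨hQ', hSP, hvQ⟩
    · rw [M.lab_good hQ' hSP hvQ] at hv; simp at hv
  · rw [lab_free h0 h1] at hv; simp at hv

/-- special labels are connected -/
lemma cn_special (hconn : ∀ Q ∈ 𝒬, IsPreconnected Q) (Q : Set ℂ) :
    Cn {v | labF d h u s lo 𝒬 SP V0 v = some (Sum.inl Q)} := by
  intro x hx y hy
  have hx' := M.lab_inl hx
  have e : {v | labF d h u s lo 𝒬 SP V0 v = some (Sum.inl Q)} = Tch d Q := by
    ext v
    exact ⟨fun hv => (M.lab_inl hv).2.2, fun hv => M.lab_spc hx'.1 hx'.2.1 hv⟩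
  rw [e] at hx hy ⊢
  exact cn_Tch d (hconn Q hx'.1) x hx y hy

/-- the labels on the vertices of a node are equal -/
lemma Ql : ∀ Q ∈ 𝒬, ∃ l, ∀ v ∈ Tch d Q, labF d h u s lo 𝒬 SP V0 v = l := by
  intro Q hQ
  by_cases hSP : Q ∈ SP
  · exact ⟨_, fun v hv => M.lab_spc hQ hSP hv⟩
  · exact ⟨_, fun v hv => M.lab_good hQ hSP hv⟩

lemma Qs : ∀ Q ∈ 𝒬, ∀ v ∈ Tch d Q, labF d h u s lo 𝒬 SP V0 v ≠ none := by
  intro Q hQ v hv hn
  exact lab_none.1 hn (M.tch Q hQ hv)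

lemma lab_ins {v : Pt} (hv : labF d h u s lo 𝒬 SP V0 v ≠ none) : v ∈ Ins d w := by
  by_contra h
  exact hv (lab_out fun h' => h (M.ins h'))

/-- points of a star off the nodes are off `K` -/
lemma offK {v : Pt} (hv : v ∈ V0) {z : ℂ} (hz : z ∈ St d v) (hzQ : ∀ Q ∈ 𝒬, z ∉ Q) :
    z ∈ w \ ⋃ Q ∈ 𝒬, interior Q := by
  refine ⟨M.ins hv hz, ?_⟩
  intro h1
  obtain ⟨Q, hQ, hzi⟩ := mem_iUnion₂.1 h1
  exact hzQ Q hQ (interior_subset hzi)

lemma notK {z : ℂ} (hz : z ∈ w \ ⋃ Q ∈ 𝒬, interior Q) : z ∉ K := fun h => hz.2 (M.cov ⟨h, hz.1⟩)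

/-- a point of a star near a node is near a point of the node off `K` -/
lemma near {v : Pt} {Q : Set ℂ} (hQ : Q ∈ 𝒬) (hv : v ∈ Tch d Q) {z : ℂ} (hz : z ∈ St d v)
    (hzK : z ∉ K) : ∃ z' ∈ Q, z' ∉ K ∧ (z = z' ∨
      (z ∈ w \ ⋃ Q ∈ 𝒬, interior Q ∧ z' ∈ w \ ⋃ Q ∈ 𝒬, interior Q ∧ ‖z - z'‖ ≤ 4 * d)) := by
  by_cases hzQ : z ∈ Q
  · exact ⟨z, hzQ, hzK, Or.inl rfl⟩
  obtain ⟨y, hy, hyQ⟩ := hv
  -- the segment from `y` to `z` meets the frontier of `Q`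
  have hseg : segment ℝ y z ⊆ St d v := (convex_St d v).segment_subset hy hz
  obtain ⟨x, hx, hxQ⟩ : (segment ℝ y z ∩ frontier Q).Nonempty := by
    by_contra hcon
    rw [not_nonempty_iff_eq_empty, ← disjoint_iff_inter_eq_empty] at hcon
    have h1 : segment ℝ y z ⊆ Q :=
      H906.subset_of_frontier_disjoint (convex_segment y z).isPreconnected
        ⟨y, left_mem_segment ℝ y z, hyQ⟩ hcon
    exact hzQ (h1 (right_mem_segment ℝ y z))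
  have hvV : v ∈ V0 := M.tch Q hQ ⟨y, hy, hyQ⟩
  have hxQ' : x ∈ Q := (M.cl Q hQ).frontier_subset hxQ
  have hother : ∀ Q' ∈ 𝒬, Q' ≠ Q → ∀ p ∈ St d v, p ∉ Q' := by
    intro Q' hQ' hne p hp hpQ
    exact disjoint_left.1 (M.pd Q' hQ' Q hQ hne) ⟨p, hp, hpQ⟩ ⟨y, hy, hyQ⟩
  have hxA : x ∈ w \ ⋃ Q ∈ 𝒬, interior Q := by
    refine ⟨M.ins hvV (hseg hx), ?_⟩
    intro h1
    obtain ⟨Q', hQ', hxi⟩ := mem_iUnion₂.1 h1
    by_cases hne : Q' = Q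
    · rw [hne] at hxi
      exact hxQ.2 hxi
    · exact hother Q' hQ' hne x (hseg hx) (interior_subset hxi)
  refine ⟨x, hxQ', M.notK hxA, Or.inr ⟨?_, hxA, ?_⟩⟩
  · refine M.offK hvV hz fun Q' hQ' => ?_
    by_cases hne : Q' = Q
    · rw [hne]; exact hzQ
    · exact hother Q' hQ' hne z hz
  · have h1 := St_subset_closedBall M.hd v hz
    have h2 := St_subset_closedBall M.hd v (hseg hx)
    rw [mem_closedBall] at h1 h2
    rw [← dist_eq_norm]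
    calc dist z x ≤ dist z (pt d v) + dist x (pt d v) := dist_triangle_right _ _ _
      _ ≤ 4 * d := by linarith

end Msh

lemma col_le {h s x : ℝ} (hh : 0 < h) : s + col h s x * h ≤ x ∧ x < s + col h s x * h + h := by
  have h1 : ((col h s x : ℤ) : ℝ) ≤ (x - s) / h := Int.floor_le _
  have h2 : (x - s) / h < (col h s x : ℝ) + 1 := Int.lt_floor_add_one _
  rw [le_div_iff₀ hh] at h1
  rw [div_lt_iff₀ hh] at h2
  constructor <;> linarith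

/-- **values on the stars** -/
theorem labOsc (M : Msh K w d 𝒬 V0) (hh : 0 < h) (hη : 0 ≤ η) (hηh : η ≤ h)
    (hmod : ∀ z ∈ w \ ⋃ Q ∈ 𝒬, interior Q, ∀ z' ∈ w \ ⋃ Q ∈ 𝒬, interior Q, ‖z - z'‖ ≤ 4 * d →
      ∀ j, |u j z - u j z'| ≤ η)
    (hlohi : ∀ Q ∈ 𝒬, ∀ z ∈ Q, z ∉ K → ∀ j, lo j Q ≤ u j z ∧ u j z ≤ hi j Q)
    (hgood : ∀ Q ∈ 𝒬, Q ∉ SP → ∀ j, hi j Q - lo j Q + η ≤ h) :
    LabOsc K d h η u s lo hi (labF d h u s lo 𝒬 SP V0) where
  spc := by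
    intro v Q hv z hz hzK j
    obtain ⟨hQ, -, hvQ⟩ := M.lab_inl hv
    obtain ⟨z', hz'Q, hz'K, hzz⟩ := M.near hQ hvQ hz hzK
    have h1 := hlohi Q hQ z' hz'Q hz'K j
    rcases hzz with rfl | ⟨hzA, hzA', hd4⟩
    · constructor <;> linarith [h1.1, h1.2]
    · have h2 := abs_le.1 (hmod z hzA z' hzA' hd4 j)
      constructor <;> linarith [h1.1, h1.2, h2.1, h2.2]
  col := by
    intro v c hv z hz hzK j
    have hv0 : v ∈ V0 := by
      by_contra h0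
      rw [Msh.lab_out h0] at hv; cases hv
    rcases Msh.cases (d := d) (𝒬 := 𝒬) v with ⟨Q, hQ, hvQ⟩ | hfree
    · by_cases hSP : Q ∈ SP
      · rw [M.lab_spc hQ hSP hvQ] at hv; simp at hv
      rw [M.lab_good hQ hSP hvQ] at hv
      have hc : c = fun j => col h (s j) (lo j Q) := by simpa using hv.symm
      obtain ⟨z', hz'Q, hz'K, hzz⟩ := M.near hQ hvQ hz hzK
      have h1 := hlohi Q hQ z' hz'Q hz'K j
      have h2 := hgood Q hQ hSP j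
      have h3 := col_le (s := s j) (x := lo j Q) hh
      rw [hc]
      rcases hzz with rfl | ⟨hzA, hzA', hd4⟩
      · constructor <;> linarith [h1.1, h1.2]
      · have h4 := abs_le.1 (hmod z hzA z' hzA' hd4 j)
        constructor <;> linarith [h1.1, h1.2, h4.1, h4.2]
    · rw [Msh.lab_free hv0 hfree] at hv
      have hc : c = fun j => col h (s j) (u j (pt d v)) := by simpa using hv.symm
      have hstar : ∀ p ∈ St d v, p ∈ w \ ⋃ Q ∈ 𝒬, interior Q := fun p hp =>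
        M.offK hv0 hp fun Q hQ hpQ => hfree Q hQ ⟨p, hp, hpQ⟩
      have h1 : ‖z - pt d v‖ ≤ 4 * d := by
        have := St_subset_closedBall M.hd v hz
        rw [mem_closedBall, dist_eq_norm] at this
        linarith [M.hd]
      have h2 := abs_le.1 (hmod z (hstar z hz) (pt d v) (hstar _ (pt_mem_St M.hd v)) h1 j)
      have h3 := col_le (s := s j) (x := u j (pt d v)) hh
      rw [hc]
      constructor <;> linarith [h2.1, h2.2, h3.1, h3.2]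
  adj := by
    intro x y c Q hxy hx hy
    obtain ⟨hQ, hSP, hyQ⟩ := M.lab_inl hy
    have hne : x ≠ y := by
      rintro rfl
      rw [hx] at hy
      simp at hy
    have hxQ : x ∉ Tch d Q := fun h1 => by
      rw [M.lab_spc hQ hSP h1] at hx
      simp at hx
    obtain ⟨z, hzx, hzy⟩ := adj_meet M.hd (adj_of_cl hxy hne)
    refine ⟨z, ⟨hzx, hzy⟩, ?_⟩
    refine M.notK (M.offK (M.tch Q hQ hyQ) hzy fun Q' hQ' hzQ' => ?_)
    by_cases h1 : Q' = Q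
    · rw [h1] at hzQ'
      exact hxQ ⟨z, hzx, hzQ'⟩
    · exact disjoint_left.1 (M.pd Q' hQ' Q hQ h1) ⟨z, hzy, hzQ'⟩ hyQ

end Vale.Agent.P116.AD.H155
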